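import Vale.Agent.P216DC.LimS
import Vale.Agent.P216SG.Defs
import Vale.Agent.P216BF.Time
import Vale.Agent.P216C.Plan

/-!
# P216FA: canonical neighbourhoods, surgery data and blow up sequences (definitions)
-/

open scoped Manifold ContDiff Topology ENNReal
open Set MeasureTheory Filter

set_option maxSynthPendingDepth 3

noncomputable section

namespace Vale.Agent.P216FA

open Vale.Agent.P216R Vale.Agent.P216DC Vale.Agent.P216SG Vale.Agent.P216BF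

section static

variable {M : Type} [TopologicalSpace M] [ChartedSpace E3 M] [MeasurableSpace M]

/-- the curvature scale -/
def sg (g : Ten E3 M) (x : M) : ℝ := (√(Sc g x))⁻¹

/-- `x` lies on an almost line of length `l` and excess `e` -/
def AL (g : Ten E3 M) (U : Set M) (x : M) (l e : ℝ) : Prop :=
  ∃ p ∈ U, ∃ q ∈ U, l ≤ dd g U x p ∧ l ≤ dd g U x q ∧ dd g U x p + dd g U x q ≤ dd g U p q + e

/-- derivative estimates at `x` and two sided curvature bounds about `x` (monotone in `C`) -/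
structure DT (C A : ℝ) (g : Ten E3 M) (U : Set M) (x : M) : Prop where
  r0 : RmB g 0 x (C * Sc g x)
  r1 : RmB g 1 x (C * Sc g x * √(Sc g x))
  r2 : RmB g 2 x (C * Sc g x ^ 2)
  two : ∀ y ∈ bl g U x (A * sg g x), Sc g x ≤ C * Sc g y ∧ Sc g y ≤ C * Sc g x

/-- almost lines give necks, and some ball is thin (monotone in `A`) -/
structure NT (ε A w : ℝ) (g : Ten E3 M) (U : Set M) (x : M) : Prop where
  neck : AL g U x (A * sg g x) (sg g x) → Cen g U x (sg g x) ε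
  thin : ∃ ρ ∈ Icc (sg g x) (A * sg g x), vol g (bl g U x ρ) ≤ ENNReal.ofReal (w * ρ ^ 3)

/-- canonical neighbourhood (a property of a time slice) -/
structure CN (ε C A w : ℝ) (g : Ten E3 M) (U : Set M) (x : M) : Prop where
  pos : 0 < Sc g x
  dt : DT C A g U x
  nt : NT ε A w g U x

/-- the version of `NT` with room, at a point with scalar curvature one -/
structure NTp (ε A w : ℝ) (g : Ten E3 M) (U : Set M) (x : M) : Prop where
  neck : AL g U x A 2 → Cen g U x 1 (ε / 2)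
  thin : ∃ ρ ∈ Icc 1 A, vol g (bl g U x (2 * ρ)) ≤ ENNReal.ofReal (w / 2 * ρ ^ 3)

/-- no tripod at the scale `σ` about `x`; `s = 0` in necks, `s = 1` in limits -/
def Tri (s : ℝ) (g : Ten E3 M) (U : Set M) (x : M) (σ : ℝ) : Prop :=
  ∀ ρ ∈ Icc ((20 + s) * σ) ((1000 - s) * σ), ∀ a ∈ U, ∀ b ∈ U, ∀ c ∈ U,
    |dd g U x a - ρ| ≤ σ / (1 + s) → |dd g U x b - ρ| ≤ σ / (1 + s) →
    |dd g U x c - ρ| ≤ σ / (1 + s) →
    dd g U a b ≤ (12 + s) * σ ∨ dd g U b c ≤ (12 + s) * σ ∨ dd g U a c ≤ (12 + s) * σ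

/-- what survives of the necks in a limit -/
def LT (L A : ℝ) (g : Ten E3 M) (U : Set M) : Prop :=
  ∀ y ∈ U, L < Sc g y → AL g U y ((A + 1) * sg g y) (sg g y / 2) → Tri 1 g U y (sg g y)

/-- the scalar curvature is almost `σ⁻²` on the ball of radius `m σ` -/
def Fl1 (η m : ℝ) (g : Ten E3 M) (U : Set M) (x : M) (σ : ℝ) : Prop :=
  ∀ y ∈ bl g U x (m * σ), |σ ^ 2 * Sc g y - 1| ≤ η

/-- Hamilton-Ivey pinching for the age `a` -/
def Pin (g : Ten E3 M) (U : Set M) (a : ℝ) : Prop :=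
  ∀ y ∈ U, ∀ η > 0, SecGe g y (-max (η * Sc g y) (Real.exp (3 + 1 / η) / a))

/-- `p` is the tip of a fresh cap of scale `h` and quality `δ` -/
structure Tip (c : ℕ → ℝ) (g : Ten E3 M) (U : Set M) (p : M) (h δ : ℝ) : Prop where
  mem : p ∈ U
  sc : ∀ y ∈ bl g U p (h / δ), 1 - δ ≤ h ^ 2 * Sc g y ∧ h ^ 2 * Sc g y ≤ c 0
  rm : ∀ j : ℕ, (j : ℝ) ≤ 1 / δ → ∀ y ∈ bl g U p (h / δ), RmB g j y (c j / h ^ (j + 2))
  top : 6 / 5 ≤ h ^ 2 * Sc g p
  low : ∃ q ∈ bl g U p (c 0 * h), h ^ 2 * Sc g q ≤ 101 / 100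
  ric : RicGe g p (1 / (c 0 * h ^ 2))
  vol : ∀ ρ ∈ Icc h (h / δ), vol g (bl g U p ρ) ≤ ENNReal.ofReal (c 0 * h ^ 2 * ρ)

end static

section flow

variable {M : Type} [TopologicalSpace M] [ChartedSpace E3 M] [MeasurableSpace M]

/-- a neck of the slice `(U, t)` which is unscathed for the time `h² / 2` -/
structure SNeck (g : ℝ → Ten E3 M) (U : Set M) (φ : E3 → M) (t h δ : ℝ) : Prop where
  neck : Neck (g t) U φ h δ
  rf : RF g (Icc (t - h ^ 2 / 2) t) (φ '' anl δ⁻¹)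

/-- what the limit arguments use about a surgery at the time `s` -/
structure SrgL (c : ℕ → ℝ) (g : ℝ → Ten E3 M) (b d : M → ℝ) (s h δ : ℝ) : Prop where
  born : ∀ z ∈ postS b d s, b z = s →
    ∃ p, Tip c (g s) (postS b d s) p h δ ∧ z ∈ bl (g s) (postS b d s) p (c 0 * h)
  died : ∀ V, IsPreconnected V → V ⊆ preS b d s → (V ∩ postS b d s).Nonempty →
    ¬ V ⊆ postS b d s → ∃ z ∈ V, bl (g s) (preS b d s) z (h / δ) ⊆ Liv b d (s - h ^ 2 / 2) s

/-- the slice `(W, s)` is `(U, t)` or an earlier slice after surgery -/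
def Prec (b d : M → ℝ) (U : Set M) (t : ℝ) (W : Set M) (s : ℝ) : Prop :=
  (s = t ∧ W = U) ∨ (s < t ∧ W = postS b d s)

/-- a flow with surgery, a base slice `(U, t)`, a base point, a region function `D` (a length),
the scale `h` and the quality `δ` of the surgeries -/
structure Dat (M : Type) where
  g : ℝ → Ten E3 M
  b : M → ℝ
  d : M → ℝ
  T₀ : ℝ
  T₁ : ℝ
  U : Set M
  t : ℝ
  x : M
  D : Set M → ℝ → M → ℝ
  h : ℝ
  δ : ℝ

/-- the standing assumptions -/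
structure Dat.Bas (F : Dat M) (c : ℕ → ℝ) : Prop where
  sf : SF F.g F.b F.d F.T₀ F.T₁
  con : ∀ W s, Sl F.b F.d F.T₀ F.T₁ W s → IsPreconnected W
  sl : Sl F.b F.d F.T₀ F.T₁ F.U F.t
  mem : F.x ∈ F.U
  hpos : 0 < F.h
  dpos : 0 < F.δ
  srg : ∀ s ∈ Ioo F.T₀ F.T₁, SrgL c F.g F.b F.d s F.h F.δ
  ori : ∀ W s, Sl F.b F.d F.T₀ F.T₁ W s → P216C.Ori W
  sep : ∀ W s, Sl F.b F.d F.T₀ F.T₁ W s → ∀ φ L, 0 < L → Emb φ (anl L) W → ∃ K, Side W φ L K

/-- `(W, s, y)` lies in the region of size `r` and duration `τ` about the base point -/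
structure Dat.Reg (F : Dat M) (r τ : ℝ) (W : Set M) (s : ℝ) (y : M) : Prop where
  prec : Prec F.b F.d F.U F.t W s
  le : F.t - τ ≤ s
  mem : y ∈ W
  dle : F.D W s y ≤ F.D F.U F.t F.x + r

/-- control on the region of size `r` and duration `τ`: pinching with age `a`, the two
properties of the region function, and no collapsing -/
structure Dat.Env (F : Dat M) (κ CD r τ a : ℝ) : Prop where
  init : F.T₀ < F.t - τ
  pin : ∀ W s, Sl F.b F.d F.T₀ F.T₁ W s → s ∈ Icc (F.t - τ) F.t → Pin (F.g s) W a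
  d1 : ∀ W s y, F.Reg r τ W s y → ∀ z ∈ W, F.D W s z ≤ F.D W s y + dd (F.g s) W y z
  d2 : ∀ W s y, F.Reg r τ W s y → ∀ ρ ∈ Ioc 0 r, ∀ σ ∈ Ioc 0 (ρ ^ 2), F.t - τ ≤ s - σ →
    ParB F.g W y s (2 * ρ) σ (1 / ρ ^ 2) →
    F.D (postS F.b F.d (s - σ)) (s - σ) y ≤ F.D W s y + CD * ρ
  nc : ∀ W s y, F.Reg r τ W s y → ∀ ρ ∈ Ioc 0 r, NC κ (F.g s) W y ρ

/-- the constants of a blow up argument -/
structure Cs where
  c : ℕ → ℝ
  κ : ℝ
  CD : ℝ
  ε : ℝ
  C : ℝ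
  A : ℝ
  w : ℝ
  L : ℝ

/-- admissible constants; `e` is an upper bound for the quality of the necks -/
structure Cs.Ok (P : Cs) (e : ℝ) : Prop where
  c1 : ∀ j, 1 ≤ P.c j
  κ0 : 0 < P.κ
  CD0 : 0 ≤ P.CD
  ε0 : 0 < P.ε
  εe : P.ε ≤ e
  C1 : 1 ≤ P.C
  A1 : 1000 ≤ P.A
  w0 : 0 < P.w
  L0 : 0 < P.L

/-- data controlled up to the level `A`, with canonical neighbourhoods above `L` -/
structure Dat.Ctl (F : Dat M) (P : Cs) (A : ℝ) : Prop where
  bas : F.Bas P.c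
  env : F.Env P.κ P.CD A A A
  cn : ∀ W s y, F.Reg A A W s y → P.L ≤ Sc (F.g s) y → CN P.ε P.C P.A P.w (F.g s) W y

/-- the backward window about `(W, s, y)` is stopped by the birth of `z` -/
structure Dat.Born (F : Dat M) (W : Set M) (s : ℝ) (y z : M) (ρ τ K r : ℝ) : Prop where
  mem : z ∈ cbl (F.g s) W y ρ
  le : s - τ ≤ F.b z
  sc : ∀ σ ∈ Icc (F.b z) s, Sc (F.g σ) z ≤ K
  reg : ∀ V σ, Prec F.b F.d W s V σ → F.b z ≤ σ → F.D V σ z ≤ F.D F.U F.t F.x + r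

end flow

section seq

variable {ι : Type} {M : ι → Type} [∀ n, TopologicalSpace (M n)] [∀ n, ChartedSpace E3 (M n)]
  [∀ n, MeasurableSpace (M n)]

/-- a blow up sequence -/
structure BU (P : Cs) (l : Filter ι) (F : ∀ n, Dat (M n)) : Prop where
  all : ∀ n, (F n).Bas P.c ∧ (F n).t = 0 ∧ Sc ((F n).g 0) (F n).x = 1
  ctl : ∀ A > 0, ∀ᶠ n in l, (F n).Ctl P A

/-- all `P(x n, 0, A, -T)` are eventually unscathed with `|Rm| ≤ K` -/
def EB (l : Filter ι) (F : ∀ n, Dat (M n)) (T K : ℝ) : Prop :=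
  ∀ A > 0, ∀ᶠ n in l, ParB (F n).g (F n).U (F n).x 0 A T K

/-- at the time `-T` a backward window (radius `ρ K`, duration `τ K`) at bounded distance is
stopped by a birth, and either `T = 0` or the sequence is controlled beyond the time `-T` -/
def CapAt (ρ τ : ℝ → ℝ) (L : ℝ) (l : Filter ι) (F : ∀ n, Dat (M n)) (T : ℝ) : Prop :=
  (T = 0 ∨ 0 < T ∧ ∃ T' > T, ∃ K, EB l F T' K) ∧ ∃ A K r, max L 1 ≤ K ∧ ∀ᶠ n in l,
    ∃ y ∈ bl ((F n).g 0) (F n).U (F n).x A, ∃ W z,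
      (F n).Reg r T W (-T) y ∧ Sc ((F n).g (-T)) y ≤ K ∧
      (F n).Born W (-T) y z (ρ K) (τ K) (4 * K) r

/-- the pointed limit of the base slices -/
abbrev LimF (l : Filter ι) (F : ∀ n, Dat (M n)) : Type 1 :=
  P216U.Lim l (fun n => (F n).U) (fun n => (F n).g 0) (fun n => (F n).x) ⊤

/-- the blow up limit is a kappa solution -/
def KOut (κ : ℝ) (l : Filter ι) (F : ∀ n, Dat (M n)) : Prop :=
  ∃ (L : LimF l F) (G : ℝ → Ten E3 L.X), FL (g := fun n => (F n).g) L G (Iic 0) univ ∧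
    KS κ G univ ∧ ∃ K, ∀ T > 0, EB l F T K

/-- the blow up limit is a time slice of a flow that starts from the cap -/
def SOut (l : Filter ι) (F : ∀ n, Dat (M n)) : Prop :=
  ∃ (L : LimF l F) (η : ℝ), 0 < η ∧ Tendsto (fun n => (F n).h) l (𝓝 η) ∧
    (∀ p, SecGe L.h p 0) ∧ (∀ p, 1 ≤ η ^ 2 * Sc L.h p) ∧ (¬ ∃ b, Spl L.h univ b) ∧
    ∃ V, ∀ ρ ≥ 1, vol L.h (bl L.h univ L.o ρ) ≤ ENNReal.ofReal (V * ρ)

end seq

end Vale.Agent.P216FA
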