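import Vale.Agent.P216FA.Defs
import Vale.Agent.P216LC.S3

/-!
# P216FA: the blocks of the local theory of Ricci flow with surgery (statements)
-/

open scoped Manifold ContDiff Topology ENNReal
open Set MeasureTheory Filter

set_option maxSynthPendingDepth 3

noncomputable section

namespace Vale.Agent.P216FA

open Vale.Agent.P216R Vale.Agent.P216DC Vale.Agent.P216SG Vale.Agent.P216BF
open Vale.Agent.P216C (Ori Mem Thick)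
open Vale.Agent.P216LC (SEP1 LS)

/-- a bundled three manifold -/
structure Mf : Type 1 where
  M : Type
  [top : TopologicalSpace M]
  [chs : ChartedSpace E3 M]
  [mfd : IsManifold 𝓘(ℝ, E3) ∞ M]
  [ms : MeasurableSpace M]
  [bs : BorelSpace M]

attribute [instance] Mf.top Mf.chs Mf.mfd Mf.ms Mf.bs

/-- radius of the backward window at the curvature level `K` -/
def wr (a K : ℝ) : ℝ := a / √K

/-- duration of the backward window at the curvature level `K` -/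
def wt (a K : ℝ) : ℝ := a ^ 2 / (4 * K)

section defs

variable {M : Type} [TopologicalSpace M] [ChartedSpace E3 M] [MeasurableSpace M]

/-- complete, connected, with nonnegative sectional curvature -/
structure NN (g : Ten E3 M) (U : Set M) : Prop where
  met : Met g U
  hs : Hs U
  con : IsPreconnected U
  cpl : Cpl g U
  sec : ∀ x ∈ U, SecGe g x 0

/-- a closed connected Riemannian manifold -/
structure Clo (g : Ten E3 M) (U : Set M) : Prop where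
  met : Met g U
  hs : Hs U
  con : IsPreconnected U
  cpt : IsCompact U

/-- change of the base point -/
def Dat.at (F : Dat M) (W : Set M) (s : ℝ) (y : M) : Dat M := { F with U := W, t := s, x := y }

/-- parabolic rescaling about the base time -/
def Dat.rs (F : Dat M) (Q : ℝ) : Dat M where
  g := resc F.g Q F.t
  b := fun z => Q * (F.b z - F.t)
  d := fun z => Q * (F.d z - F.t)
  T₀ := Q * (F.T₀ - F.t)
  T₁ := Q * (F.T₁ - F.t)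
  U := F.U
  t := 0
  x := F.x
  D := fun W s y => √Q * F.D W (F.t + s / Q) y
  h := √Q * F.h
  δ := F.δ

/-- the slice at the time `s ≤ F.t` that precedes the base slice -/
def Dat.sl (F : Dat M) (s : ℝ) : Set M := if s < F.t then postS F.b F.d s else F.U

/-- canonical neighbourhoods on the region of size `r` and duration `τ`, above the level `L` -/
def Dat.CNR (F : Dat M) (ε C A w r τ L : ℝ) : Prop :=
  ∀ W s y, F.Reg r τ W s y → L ≤ Sc (F.g s) y → CN ε C A w (F.g s) W y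

/-- the ball of radius `R` about `z` at the birth time of `z` survives up to `(W, s)` -/
structure Dat.Fwd (F : Dat M) (c : ℕ → ℝ) (W : Set M) (s : ℝ) (z : M) (R K : ℝ) : Prop where
  tip : ∃ p, Tip c (F.g (F.b z)) (postS F.b F.d (F.b z)) p F.h F.δ ∧
    z ∈ bl (F.g (F.b z)) (postS F.b F.d (F.b z)) p (c 0 * F.h)
  sub : bl (F.g (F.b z)) (postS F.b F.d (F.b z)) z R ⊆ W
  rf : RF F.g (Icc (F.b z) s) (bl (F.g (F.b z)) (postS F.b F.d (F.b z)) z R)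
  rm : ∀ σ ∈ Icc (F.b z) s, ∀ u ∈ bl (F.g (F.b z)) (postS F.b F.d (F.b z)) z R,
    RmB (F.g σ) 0 u K

end defs

/-- the limit flow of a blow up sequence on the time interval `I` -/
structure LP {ι : Type} {X : ι → Mf} (P : Cs) (l : Filter ι) (F : ∀ n, Dat (X n).M)
    (L : LimF l F) (G : ℝ → Ten E3 L.X) (I : Set ℝ) : Prop where
  fl : FL (g := fun n => (F n).g) L G I univ
  nn : ∀ t ∈ I, NN (G t) univ
  one : Sc (G 0) L.o = 1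
  bdd : ∀ t ∈ I, ∃ K, ∀ s ∈ Icc t 0, ∀ p, Sc (G s) p ≤ K
  conv : ∀ t ∈ I, P216U.Conv l (fun n => (F n).sl t) (fun n => (F n).g t) L.F (G t) univ
  reg : ∀ t ∈ I, ∀ K, IsCompact K → ∃ r, ∀ᶠ n in l, ∀ s ∈ Icc t 0, ∀ p ∈ K,
    (F n).Reg r (-t) ((F n).sl s) s (L.F n p)
  nc : ∀ t ∈ I, ∀ p, ∀ r > 0, NC P.κ (G t) univ p r
  lt : ∀ t ∈ I, LT P.L P.A (G t) univ
  eb : ∀ τ > 0, -τ ∈ I → ∀ K, (∀ s ∈ Icc (-τ) 0, ∀ p, Sc (G s) p ≤ K) → EB l F τ (K + 1)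

/-! ## Bookkeeping -/

/-- **SCALE**: monotonicity, change of the base point, rescaling -/
structure SCALE : Prop where
  sfb : ∀ (X : Mf) (g : ℝ → Ten E3 X.M) (b d : X.M → ℝ) (T₀ T₁ : ℝ), SF g b d T₀ T₁ →
    ∃ B, ∀ W s, Sl b d T₀ T₁ W s → ∀ y ∈ W, Sc (g s) y ≤ B
  clo : ∀ (X : Mf) (F : Dat X.M) (c : ℕ → ℝ) (W : Set X.M) (s : ℝ), F.Bas c →
    Sl F.b F.d F.T₀ F.T₁ W s → Clo (F.g s) W
  regSl : ∀ (X : Mf) (F : Dat X.M) (c : ℕ → ℝ) (r τ : ℝ) (W : Set X.M) (s : ℝ) (y : X.M),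
    F.Bas c → F.T₀ < F.t - τ → F.Reg r τ W s y → Sl F.b F.d F.T₀ F.T₁ W s
  envMono : ∀ (X : Mf) (F : Dat X.M) (κ CD r τ a r' τ' a' : ℝ), F.Env κ CD r τ a → r' ≤ r →
    τ' ≤ τ → 0 < a' → a' ≤ a → (∀ W s, Sl F.b F.d F.T₀ F.T₁ W s → Met (F.g s) W) →
    F.Env κ CD r' τ' a'
  ctlMono : ∀ (X : Mf) (F : Dat X.M) (P : Cs) (A A' : ℝ), F.Ctl P A → 0 < A' → A' ≤ A →
    F.Ctl P A'
  atBas : ∀ (X : Mf) (F : Dat X.M) (c : ℕ → ℝ) (W : Set X.M) (s : ℝ) (y : X.M), F.Bas c →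
    Sl F.b F.d F.T₀ F.T₁ W s → y ∈ W → (F.at W s y).Bas c
  atReg : ∀ (X : Mf) (F : Dat X.M) (r τ r' τ' : ℝ) (W V : Set X.M) (s u : ℝ) (y z : X.M),
    F.Reg r τ W s y → (F.at W s y).Reg r' τ' V u z → F.Reg (r + r') (τ + τ') V u z
  atEnv : ∀ (X : Mf) (F : Dat X.M) (κ CD r τ a r' τ' : ℝ) (W : Set X.M) (s : ℝ) (y : X.M),
    F.Env κ CD r τ a → 0 ≤ r' → 0 ≤ τ' → F.Reg r' τ' W s y →
    (F.at W s y).Env κ CD (r - r') (τ - τ') a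
  rsBas : ∀ (X : Mf) (F : Dat X.M) (c : ℕ → ℝ) (Q : ℝ), 0 < Q → F.Bas c → (F.rs Q).Bas c
  rsReg : ∀ (X : Mf) (F : Dat X.M) (Q r τ : ℝ) (W : Set X.M) (s : ℝ) (y : X.M), 0 < Q →
    ((F.rs Q).Reg (√Q * r) (Q * τ) W s y ↔ F.Reg r τ W (F.t + s / Q) y)
  rsEnv : ∀ (X : Mf) (F : Dat X.M) (c : ℕ → ℝ) (Q κ CD r τ a : ℝ), 0 < Q → F.Bas c →
    F.Env κ CD r τ a → (F.rs Q).Env κ CD (√Q * r) (Q * τ) (Q * a)
  rsCN : ∀ (X : Mf) (g : Ten E3 X.M) (U : Set X.M) (x : X.M) (Q ε C A w : ℝ), 0 < Q →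
    Clo g U → x ∈ U → (CN ε C A w (Q • g) U x ↔ CN ε C A w g U x)
  rsNeck : ∀ (X : Mf) (g : ℝ → Ten E3 X.M) (U : Set X.M) (φ : E3 → X.M) (Q t h δ : ℝ), 0 < Q →
    SNeck (resc g Q t) U φ 0 (√Q * h) δ → SNeck g U φ t h δ
  dtMono : ∀ (X : Mf) (g : Ten E3 X.M) (U : Set X.M) (x : X.M) (C A C' A' : ℝ), 0 < Sc g x →
    0 ≤ C → C ≤ C' → A' ≤ A → DT C A g U x → DT C' A' g U x
  ntMono : ∀ (X : Mf) (g : Ten E3 X.M) (U : Set X.M) (x : X.M) (ε w A A' : ℝ), A ≤ A' →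
    NT ε A w g U x → NT ε A' w g U x

/-! ## Static geometry -/

/-- **NKF**: necks have no tripods and almost constant scalar curvature -/
def NKF : Prop :=
  ∀ m : ℝ, ∃ e > 0, ∀ (X : Mf) (g : Ten E3 X.M) (U : Set X.M) (x : X.M) (σ ε : ℝ),
    Met g U → Hs U → ε ≤ e → Cen g U x σ ε → Tri 0 g U x σ ∧ Fl1 (1 / 100) m g U x σ

/-- **NP**: points near a segment without tripods are close to the segment -/
def NP : Prop :=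
  ∀ (X : Mf) (g : Ten E3 X.M) (U : Set X.M) (γ : ℝ → X.M) (σ : ℝ → ℝ) (p : X.M)
    (ℓ s u₀ R S : ℝ), Met g U → Hs U → Cpl g U → MinGeo g U γ ℓ → s ∈ Icc (0 : ℝ) 1 →
    p ∈ bl g U (γ u₀) R → 0 ≤ u₀ - 2 * R - 30 * S → u₀ + 2 * R + 30 * S ≤ ℓ →
    (∀ u ∈ Icc (u₀ - 2 * R) (u₀ + 2 * R), σ u ∈ Ioc 0 S ∧ Tri s g U (γ u) (σ u)) →
    ∃ u ∈ Icc (u₀ - 2 * R) (u₀ + 2 * R), p ∈ bl g U (γ u) (30 * σ u)

/-- **TV**: the volume of a ball about a segment with large curvature is small -/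
def TV : Prop :=
  ∃ c > 0, ∀ (X : Mf) (g : Ten E3 X.M) (U : Set X.M) (γ : ℝ → X.M) (ℓ K L A : ℝ),
    NN g U → LT L A g U → MinGeo g U γ ℓ → 0 ≤ A → 0 < K → L < K →
    (∀ u ∈ Icc 0 ℓ, K ≤ Sc g (γ u)) → 10 * (A + 100) ≤ ℓ * √K →
    vol g (bl g U (γ (ℓ / 2)) (ℓ / 10)) ≤ ENNReal.ofReal (c * ℓ / K)

/-- **NSN**: no small necks at infinity -/
def NSN : Prop :=
  ∀ (X : Mf) (g : Ten E3 X.M) (U : Set X.M) (L A : ℝ), NN g U → LT L A g U →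
    ∃ K, ∀ x ∈ U, Sc g x ≤ K

/-- **ALS**: long almost lines of bounded excess through a point give a splitting -/
def ALS : Prop :=
  ∀ (X : Mf) (g : Ten E3 X.M) (U : Set X.M) (x : X.M) (e : ℝ), NN g U → x ∈ U →
    (∀ ℓ, AL g U x ℓ e) → ∃ b, Spl g U b

/-- **SLN**: a splitting gives lines through all points and a null direction of `Ric` -/
def SLN : Prop :=
  ∀ (X : Mf) (g : Ten E3 X.M) (U : Set X.M) (b : X.M → ℝ) (x : X.M), Met g U → Hs U → Cpl g U →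
    Spl g U b → x ∈ U → (∀ ℓ, AL g U x ℓ 0) ∧ ∀ k > 0, ¬ RicGe g x k

/-- **LTL**: the property `LT` of limits -/
def LTL : Prop :=
  ∀ (ι : Type) (l : Ultrafilter ι) (X : ι → Mf) (Y : Mf) (W : ∀ n, Set (X n).M)
    (g : ∀ n, Ten E3 (X n).M) (f : ∀ n, Y.M → (X n).M) (h : Ten E3 Y.M) (L A : ℝ),
    P216U.Conv l W g f h univ → Hs (univ : Set Y.M) → IsPreconnected (univ : Set Y.M) →
    Cpl h univ → (∀ᶠ n in l, Met (g n) (W n) ∧ Hs (W n)) → 0 < L →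
    (∀ y, ∀ᶠ n in l, L ≤ Sc (g n) (f n y) →
      AL (g n) (W n) (f n y) (A * sg (g n) (f n y)) (sg (g n) (f n y)) →
      Tri 0 (g n) (W n) (f n y) (sg (g n) (f n y))) → LT L A h univ

/-- **LSL**: the property `LS` of limits -/
def LSL : Prop :=
  ∀ (ι : Type) (l : Ultrafilter ι) (X : ι → Mf) (Y : Mf) (W : ∀ n, Set (X n).M)
    (g : ∀ n, Ten E3 (X n).M) (f : ∀ n, Y.M → (X n).M) (h : Ten E3 Y.M) (L A ε : ℝ),
    P216U.Conv l W g f h univ → Hs (univ : Set Y.M) → IsPreconnected (univ : Set Y.M) →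
    Cpl h univ → (∀ᶠ n in l, Met (g n) (W n) ∧ Hs (W n) ∧
      ∀ φ L, 0 < L → Emb φ (anl L) (W n) → ∃ K, Side (W n) φ L K) → 0 < L → ε ≤ 1 / 1000 →
    (∀ y, ∀ᶠ n in l, L ≤ Sc (g n) (f n y) →
      AL (g n) (W n) (f n y) (A * sg (g n) (f n y)) (sg (g n) (f n y)) →
      Cen (g n) (W n) (f n y) (sg (g n) (f n y)) ε) → LS L A h univ

/-- **TR**: transfer between the limit and the sequence -/
def TR : Prop :=
  ∀ (ι : Type) (l : Ultrafilter ι) (X : ι → Mf) (U : ∀ n, Set (X n).M)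
    (g : ∀ n, Ten E3 (X n).M) (x : ∀ n, (X n).M) (L : P216U.Lim l U g x ⊤),
    (∀ n, Clo (g n) (U n) ∧ x n ∈ U n ∧ Sc (g n) (x n) = 1) →
    (∀ C A, 0 < C → DT C (A + 1) L.h univ L.o → ∀ᶠ n in l, DT (2 * C) A (g n) (U n) (x n)) ∧
    (∀ ε A w, 0 < ε → 0 < w → NTp ε A w L.h univ L.o →
      ∀ᶠ n in l, NT ε A w (g n) (U n) (x n)) ∧
    ((∀ p, 0 < Sc L.h p) → ∀ A, ∃ C > 0, DT C A L.h univ L.o) ∧
    ((∀ n, Ori (U n)) → Ori (univ : Set L.X))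

/-- **KCN**: canonical neighbourhoods in kappa solutions -/
def KCN : Prop :=
  ∀ κ > 0, ∀ ε > 0, ∀ w > 0, ∃ A₁, ∀ A ≥ A₁, ∃ C > 0,
    ∀ (X : Mf) (g : ℝ → Ten E3 X.M) (U : Set X.M) (x : X.M), KS κ g U → Ori U → x ∈ U →
      Sc (g 0) x = 1 → DT C (A + 1) (g 0) U x ∧ NTp ε A w (g 0) U x

/-! ## Smooth flows -/

/-- **FHARN**: the trace Harnack inequality on a finite interval -/
def FHARN : Prop :=
  ∀ (X : Mf) (g : ℝ → Ten E3 X.M) (U : Set X.M) (a b K : ℝ), RF g (Icc a b) U →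
    (∀ t ∈ Icc a b, NN (g t) U ∧ ∀ x ∈ U, Sc (g t) x ≤ K) →
    ∀ x ∈ U, MonotoneOn (fun t => (t - a) * Sc (g t) x) (Icc a b)

/-- **NMP**: maximum principles for the scalar curvature on complete flows -/
def NMP : Prop :=
  ∀ (X : Mf) (g : ℝ → Ten E3 X.M) (U : Set X.M) (a b K : ℝ), a ≤ b → RF g (Icc a b) U →
    (∀ t ∈ Icc a b, NN (g t) U ∧ ∀ x ∈ U, Sc (g t) x ≤ K) →
    (∀ k, (∀ x ∈ U, k ≤ Sc (g a) x) → ∀ x ∈ U, k ≤ Sc (g b) x) ∧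
    ∀ k, (∀ x ∈ U, Sc (g a) x ≤ k) → ∀ x ∈ U, Sc (g b) x ≤ k * Real.exp (K * (b - a))

/-- **RTR**: a positive lower bound for the Ricci curvature persists for a short time -/
def RTR : Prop :=
  ∀ K : ℝ, ∀ k > 0, ∃ θ > 0, ∀ (X : Mf) (g : ℝ → Ten E3 X.M) (U : Set X.M) (x : X.M) (a b : ℝ),
    a ≤ b → b - a ≤ θ → RF g (Icc a b) U → x ∈ U →
    (∀ t ∈ Icc a b, RmB (g t) 0 x K ∧ RmB (g t) 2 x K) → RicGe (g a) x k → RicGe (g b) x (k / 2)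

/-- **BSP**: splitting persists backward in time -/
def BSP : Prop :=
  ∀ (X : Mf) (g : ℝ → Ten E3 X.M) (U : Set X.M) (f : X.M → ℝ) (a b K : ℝ), a ≤ b →
    RF g (Icc a b) U → (∀ t ∈ Icc a b, NN (g t) U ∧ ∀ x ∈ U, Sc (g t) x ≤ K) →
    U.Nonempty → Spl (g b) U f → ∃ f', Spl (g a) U f'

/-- **LOWP**: points of bounded curvature are uniformly dense up to the initial time -/
def LOWP : Prop :=
  ∀ (X : Mf) (g : ℝ → Ten E3 X.M) (U : Set X.M) (T κ L A : ℝ), 0 < T → 0 < κ → 0 ≤ A →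
    RF g (Ioc (-T) 0) U → (∀ t ∈ Ioc (-T) 0, NN (g t) U ∧ LT L A (g t) U ∧
      ∃ K, ∀ s ∈ Icc t 0, ∀ x ∈ U, Sc (g s) x ≤ K) →
    (∀ x ∈ U, ∀ r > 0, NC κ (g 0) U x r) →
    ∃ K ℓ, ∀ t ∈ Ioc (-T) 0, ∀ x ∈ U, ∃ y ∈ bl (g t) U x ℓ, Sc (g t) y ≤ K

/-! ## Windows -/

/-- **WIN**: the backward window exists unless it is stopped by a birth -/
def WIN : Prop :=
  ∀ (P : Cs) (e : ℝ), P.Ok e → ∃ a₀ > 0, ∀ a ∈ Ioc 0 a₀, ∀ r T : ℝ, ∃ lev > 0, ∃ r' ≥ r,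
    ∀ (X : Mf) (F : Dat X.M) (W : Set X.M) (s : ℝ) (y : X.M) (K : ℝ), F.Ctl P lev →
      F.Reg r T W s y → max P.L 1 ≤ K → Sc (F.g s) y ≤ K →
      ParB F.g W y s (wr a K) (wt a K) (16 * K) ∨
        ∃ z, F.Born W s y z (wr a K) (wt a K) (4 * K) r'

/-- **FWD**: forward control after a birth -/
def FWD : Prop :=
  ∀ (P : Cs) (e : ℝ), P.Ok e → ∃ a₀ > 0, ∃ B > 0, ∀ a ∈ Ioc 0 a₀, ∀ r T R : ℝ, ∃ lev > 0,
    ∀ (X : Mf) (F : Dat X.M) (W : Set X.M) (s : ℝ) (y z : X.M) (K ρ : ℝ), F.Ctl P lev →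
      F.Reg r T W s y → max P.L 1 ≤ K → F.Born W s y z ρ (wt a K) (4 * K) r →
      F.δ * P.c 0 ≤ 1 / 8 → F.δ * R ≤ F.h / 4 →
      1 ≤ 8 * K * F.h ^ 2 ∧ F.Fwd P.c W s z R (B * K)

/-- **RAT**: shortly after a birth the scalar curvature is not almost constant -/
def RAT : Prop :=
  ∀ (P : Cs) (e : ℝ), P.Ok e → ∃ a₀ > 0, ∀ a ∈ Ioc 0 a₀, ∀ r T H : ℝ, ∃ lev > 0,
    ∀ (X : Mf) (F : Dat X.M) (W : Set X.M) (s : ℝ) (y z : X.M) (K ρ : ℝ), F.Ctl P lev →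
      F.Reg r T W s y → max P.L 1 ≤ K → F.Born W s y z ρ (wt a K) (4 * K) r →
      F.δ * P.c 0 ≤ 1 / 8 → F.h ≤ H → 4 * P.L * F.h ^ 2 ≤ 1 →
      ∃ p ∈ bl (F.g s) W z (4 * P.c 0 * F.h), ∃ q ∈ bl (F.g s) W z (4 * P.c 0 * F.h),
        F.h ^ 2 * Sc (F.g s) p ∈ Icc (23 / 20) (2 * P.c 0) ∧
        F.h ^ 2 * Sc (F.g s) q ∈ Icc (7 / 10 : ℝ) (21 / 20)

/-- **WINN**: no births in the window of a point about which the curvature is almost constant -/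
def WINN : Prop :=
  ∀ (P : Cs) (e : ℝ), P.Ok e → ∃ a₀ > 0, ∀ a ∈ Ioc 0 a₀, ∀ r T : ℝ, ∃ lev > 0,
    ∀ (X : Mf) (F : Dat X.M) (W : Set X.M) (s : ℝ) (y z : X.M), F.Ctl P lev →
      F.Reg r T W s y → max (8 * P.c 0 * P.L) 1 ≤ Sc (F.g s) y → F.δ * P.c 0 ≤ 1 / 8 →
      Fl1 (1 / 100) (10 * P.c 0 ^ 2) (F.g s) W y (sg (F.g s) y) →
      ¬ F.Born W s y z (wr a (Sc (F.g s) y)) (wt a (Sc (F.g s) y)) (4 * Sc (F.g s) y) r

/-- **BCA**: bounded curvature at bounded distance inside the region -/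
def BCA : Prop :=
  ∀ c : ℕ → ℝ, ∃ e > 0, ∀ P : Cs, P.c = c → P.Ok e → ∀ K₁ A₁ : ℝ, ∃ K, ∀ r T : ℝ, ∃ lev > 0,
    ∀ (X : Mf) (F : Dat X.M) (W : Set X.M) (s : ℝ) (y : X.M), F.Ctl P lev →
      F.δ * c 0 ≤ 1 / 8 → F.Reg r T W s y → Sc (F.g s) y ≤ K₁ →
      ∀ z ∈ bl (F.g s) W y A₁, Sc (F.g s) z ≤ K

/-- **REGN**: a controlled parabolic neighbourhood lies in the region -/
def REGN : Prop :=
  ∀ (P : Cs) (e : ℝ), P.Ok e → ∀ A T K : ℝ, ∃ r, ∃ A' > 0, ∃ lev > 0,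
    ∀ (X : Mf) (F : Dat X.M), F.Ctl P lev → 0 ≤ T → ParB F.g F.U F.x F.t A' T K →
      ∀ y ∈ bl (F.g F.t) F.U F.x A, ∀ s ∈ Icc (F.t - T) F.t, F.Reg r T (F.sl s) s y

/-! ## Blow up sequences -/

/-- **LPX**: existence of the limit flow -/
def LPX : Prop :=
  ∀ c : ℕ → ℝ, ∃ e > 0, ∀ P : Cs, P.c = c → P.Ok e →
    ∀ (ι : Type) (l : Ultrafilter ι) (X : ι → Mf) (F : ∀ n, Dat (X n).M) (I : Set ℝ),
      BU P l F → Bk I → (∀ τ > 0, -τ ∈ I → ∃ K, EB l F τ K) →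
      ∃ (L : LimF l F) (G : ℝ → Ten E3 L.X), LP P l F L G I

/-- **ST1**: the first step backward -/
def ST1 : Prop :=
  ∀ c : ℕ → ℝ, ∃ e > 0, ∀ P : Cs, P.c = c → P.Ok e → ∃ a₀ > 0, ∀ a ∈ Ioc 0 a₀,
    ∀ (ι : Type) (l : Ultrafilter ι) (X : ι → Mf) (F : ∀ n, Dat (X n).M), BU P l F →
      (∀ᶠ n in l, (F n).δ * c 0 ≤ 1 / 8) →
      CapAt (wr a) (wt a) P.L l F 0 ∨ ∃ T > 0, ∃ K, EB l F T K

/-- **EXT**: extension beyond a time up to which the curvature is uniformly bounded -/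
def EXT : Prop :=
  ∀ (P : Cs) (e : ℝ), P.Ok e → ∃ a₀ > 0, ∀ a ∈ Ioc 0 a₀,
    ∀ (ι : Type) (l : Ultrafilter ι) (X : ι → Mf) (F : ∀ n, Dat (X n).M) (T K : ℝ), BU P l F →
      0 < T → (∀ τ ∈ Ioo 0 T, EB l F τ K) →
      (∃ τ, CapAt (wr a) (wt a) P.L l F τ) ∨ ∃ T' > T, ∃ K', EB l F T' K'

/-- **BND**: the curvature does not blow up backward in finite time -/
def BND : Prop :=
  ∀ c : ℕ → ℝ, ∃ e > 0, ∀ P : Cs, P.c = c → P.Ok e →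
    ∀ (ι : Type) (l : Ultrafilter ι) (X : ι → Mf) (F : ∀ n, Dat (X n).M) (T : ℝ), BU P l F →
      (∀ᶠ n in l, (F n).δ * c 0 ≤ 1 / 8) → 0 < T → (∀ τ ∈ Ioo 0 T, ∃ K, EB l F τ K) →
      ∃ K, ∀ τ ∈ Ioo 0 T, EB l F τ K

/-- **KOUT**: an ancient limit is a kappa solution -/
def KOUT : Prop :=
  ∀ c : ℕ → ℝ, ∃ e > 0, ∀ P : Cs, P.c = c → P.Ok e →
    ∀ (ι : Type) (l : Ultrafilter ι) (X : ι → Mf) (F : ∀ n, Dat (X n).M), BU P l F →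
      (∀ τ > 0, ∃ K, EB l F τ K) → KOut P.κ l F

/-- **CORE**: the limit is a kappa solution unless a backward window is stopped by a birth -/
def CORE : Prop :=
  ∀ c : ℕ → ℝ, ∃ e > 0, ∀ P : Cs, P.c = c → P.Ok e → ∃ a₀ > 0, ∀ a ∈ Ioc 0 a₀,
    ∀ (ι : Type) (l : Ultrafilter ι) (X : ι → Mf) (F : ∀ n, Dat (X n).M), BU P l F →
      (∀ᶠ n in l, (F n).δ * c 0 ≤ 1 / 8) →
      KOut P.κ l F ∨ ∃ T, CapAt (wr a) (wt a) P.L l F T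

/-- **SOUT**: the limit in the presence of a cap -/
def SOUT : Prop :=
  ∀ c : ℕ → ℝ, ∃ e > 0, ∀ P : Cs, P.c = c → P.Ok e → ∃ a₀ > 0, ∀ a ∈ Ioc 0 a₀,
    ∀ (ι : Type) (l : Ultrafilter ι) (X : ι → Mf) (F : ∀ n, Dat (X n).M) (T : ℝ), BU P l F →
      Tendsto (fun n => (F n).δ) l (𝓝 0) → CapAt (wr a) (wt a) P.L l F T → SOut l F

/-- **LCN**: the two possible blow up limits -/
def LCN : Prop :=
  ∀ c : ℕ → ℝ, ∃ e > 0, ∀ P : Cs, P.c = c → P.Ok e →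
    ∀ (ι : Type) (l : Ultrafilter ι) (X : ι → Mf) (F : ∀ n, Dat (X n).M), BU P l F →
      Tendsto (fun n => (F n).δ) l (𝓝 0) → KOut P.κ l F ∨ SOut l F

/-! ## The two results -/

/-- **CNLOC**: canonical neighbourhoods at points of large curvature -/
def CNLOC : Prop :=
  ∀ c : ℕ → ℝ, (∀ j, 1 ≤ c j) → ∃ e > 0, ∀ ε ∈ Ioc 0 e, ∀ κ > 0, ∀ w > 0, ∀ CD ≥ 0,
    ∃ C ≥ 1, ∃ A ≥ 1000, ∃ K > 0, ∃ δ₀ > 0, ∀ (X : Mf) (F : Dat X.M) (r : ℝ), F.Bas c →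
      F.δ ≤ δ₀ → 0 < r → F.Env κ CD r (r ^ 2) (r ^ 2) → K ≤ r ^ 2 * Sc (F.g F.t) F.x →
      CN ε C A w (F.g F.t) F.U F.x

/-- **CUTL**: the cutoff lemma, strong necks of any quality on a long segment -/
def CUTL : Prop :=
  ∀ c : ℕ → ℝ, ∃ e > 0, ∀ P : Cs, P.c = c → P.Ok e → ∀ δ > 0, ∃ Λ > 0,
    ∀ (X : Mf) (F : Dat X.M) (γ : ℝ → X.M) (ℓ : ℝ), F.Bas c → F.δ * c 0 ≤ 1 / 8 →
      (∀ W s y, F.D W s y = 0) → F.Env P.κ P.CD (Λ * F.h) (Λ * F.h ^ 2) (Λ * F.h ^ 2) →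
      F.CNR P.ε P.C P.A P.w (Λ * F.h) (Λ * F.h ^ 2) (1 / (Λ * F.h ^ 2)) →
      MinGeo (F.g F.t) F.U γ ℓ → Λ * F.h ^ 2 * Sc (F.g F.t) (γ 0) ≤ 1 →
      Λ ≤ F.h ^ 2 * Sc (F.g F.t) (γ ℓ) →
      ∃ φ, SNeck F.g F.U φ F.t F.h δ ∧ ∃ u ∈ Icc 0 ℓ, γ u ∈ φ '' Metric.sphere 0 1

end Vale.Agent.P216FA
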