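import Vale.Agent.P216FA.All
import Vale.Agent.P216SG.NoCap

/-!
# P216FA: the cutoff lemma
-/

open scoped Manifold ContDiff Topology ENNReal
open Set MeasureTheory Filter Real

set_option maxSynthPendingDepth 3

noncomputable section

namespace Vale.Agent.P216FA

open Vale.Agent.P216R Vale.Agent.P216DC Vale.Agent.P216SG Vale.Agent.P216BF

/-- normalised data of the cutoff lemma -/
structure Nrm {X : Mf} (P : Cs) (Λ : ℝ) (F : Dat X.M) (γ : ℝ → X.M) (ℓ v : ℝ) : Prop where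
  bas : F.Bas P.c
  t0 : F.t = 0
  h1 : F.h = 1
  del : F.δ * P.c 0 ≤ 1 / 8
  dz : ∀ W s y, F.D W s y = 0
  env : F.Env P.κ P.CD Λ Λ Λ
  cn : F.CNR P.ε P.C P.A P.w Λ Λ (1 / Λ)
  seg : Seg (F.g 0) F.U γ ℓ
  mem : v ∈ Icc 0 ℓ
  eq : γ v = F.x
  one : Sc (F.g 0) F.x = 1
  lo : Λ * Sc (F.g 0) (γ 0) ≤ 1
  hi : Λ ≤ Sc (F.g 0) (γ ℓ)

namespace Nrm

variable {X : Mf} {P : Cs} {Λ ℓ v : ℝ} {F : Dat X.M} {γ : ℝ → X.M}

theorem clo (H : Nrm P Λ F γ ℓ v) : Clo (F.g 0) F.U :=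
  H.t0 ▸ P216J.scale.clo X F _ _ _ H.bas H.bas.sl

theorem reg (H : Nrm P Λ F γ ℓ v) {r τ : ℝ} (hr : 0 ≤ r) (hτ : 0 ≤ τ) {y : X.M} (hy : y ∈ F.U) :
    F.Reg r τ F.U 0 y :=
  ⟨Or.inl ⟨H.t0.symm, rfl⟩, by rw [H.t0]; linarith, hy, by rw [H.dz, H.dz]; linarith⟩

theorem ctl (H : Nrm P Λ F γ ℓ v) {A L : ℝ} (hA : 0 < A) (h1 : A ≤ Λ) (h2 : 1 / Λ ≤ L) :
    F.Ctl { P with L := L } A :=
  ⟨H.bas, P216J.scale.envMono X F _ _ _ _ _ _ _ _ H.env h1 h1 hA h1 fun _ _ k => H.bas.sf.met k,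
    fun W s y k k' => H.cn W s y (P216J.reg_mono k h1 h1) (h2.trans k')⟩

theorem mem_bl (H : Nrm P Λ F γ ℓ v) {s t r : ℝ} (hs : s ∈ Icc 0 ℓ) (ht : t ∈ Icc 0 ℓ)
    (h : |s - t| < r) : γ t ∈ bl (F.g 0) F.U (γ s) r := by
  rw [bl, mem_ofPred_eq, H.seg.min s hs t ht]
  exact (ENNReal.ofReal_lt_ofReal_iff_of_nonneg (abs_nonneg _)).2 h

theorem low {e A lam : ℝ} (hP : P.Ok e) (H : Nrm P Λ F γ ℓ v) (hl : 0 < lam)
    (h1 : P.C * lam < 1) (h2 : A * √lam ≤ P.A) (h3 : 1 / Λ ≤ lam) (h0 : 0 < Λ) : A ≤ v := by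
  by_contra! k
  have s1 : Icc 0 v ⊆ Icc 0 ℓ := Icc_subset_Icc_right H.mem.2
  have c1 := hP.C1
  obtain ⟨t, ht, e1⟩ := intermediate_value_Icc H.mem.1
    ((H.clo.met.continuousOn_Sc.comp H.seg.cont H.seg.mem).mono s1)
    (show lam ∈ Icc (Sc (F.g 0) (γ 0)) (Sc (F.g 0) (γ v)) from
      ⟨le_trans (by rw [le_div_iff₀ h0]; linarith [H.lo]) h3, by rw [H.eq, H.one]; nlinarith⟩)
  have e1 : Sc (F.g 0) (γ t) = lam := e1
  have q := sqrt_pos.2 hl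
  have := ((H.cn _ 0 _ (H.reg h0.le h0.le (H.seg.mem (s1 ht))) (e1 ▸ h3)).dt.two (γ v)
    (H.mem_bl (s1 ht) H.mem (by
      rw [sg, e1, ← div_eq_mul_inv, lt_div_iff₀ q, abs_of_nonpos (sub_nonpos.2 ht.2)]
      nlinarith [ht.1]))).2
  rw [H.eq, H.one, e1] at this
  linarith

theorem geo (H : Nrm P Λ F γ ℓ v) {A : ℝ} (hA : 0 < A) (h1 : A ≤ v) (h2 : v + A ≤ ℓ) :
    ∃ σ, MinGeo (F.g 0) F.U σ (2 * A) ∧ σ A = F.x := by
  obtain ⟨σ, h3, h4⟩ := P216CP.exists_minGeo_of_iso (c := fun s => γ (v - A + s)) H.clo.met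
    H.clo.hs (show 0 < 2 * A by linarith) fun a ha b hb => by
      rw [H.seg.min _ ⟨by linarith [ha.1], by linarith [ha.2]⟩ _
        ⟨by linarith [hb.1], by linarith [hb.2]⟩, add_sub_add_left_eq_sub]
  exact ⟨σ, h3, by rw [h4 ⟨hA.le, by linarith⟩, ← H.eq]; simp⟩

end Nrm

theorem cut_seq (c : ℕ → ℝ) : ∃ e > 0, ∀ P : Cs, P.c = c → P.Ok e → ∀ δ > 0,
    ∀ (X : ℕ → Mf) (F : ∀ n, Dat (X n).M) (γ : ∀ n, ℝ → (X n).M) (ℓ v : ℕ → ℝ),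
      (∀ n : ℕ, Nrm P (n + 1) (F n) (γ n) (ℓ n) (v n)) → ∃ n φ,
        SNeck (F n).g (F n).U φ 0 1 δ ∧ (F n).x ∈ φ '' Metric.sphere 0 1 := by
  obtain ⟨e₁, e1, hC⟩ := core_all c
  obtain ⟨e₂, e2, hN⟩ := nocap P216J.scale P216SD.rat P216LP.lpx' c
  obtain ⟨e₃, e3, hB⟩ := bca_all c
  refine ⟨min e₁ (min e₂ e₃), by positivity, fun P hc hP δ d0 X F γ ℓ v H => ?_⟩
  have ok : ∀ e, min e₁ (min e₂ e₃) ≤ e → Cs.Ok { P with L := 1 / 4 } e := fun e he =>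
    ⟨hP.c1, hP.κ0, hP.CD0, hP.ε0, hP.εe.trans he, hP.C1, hP.A1, hP.w0, by norm_num⟩
  have n0 : ∀ n : ℕ, (0 : ℝ) < n + 1 := fun n => by positivity
  have inv : ∀ L > 0, ∀ᶠ n : ℕ in hyperfilter ℕ, 1 / ((n : ℝ) + 1) ≤ L := fun L hL =>
    (ev_le (1 / L)).mono fun n k => by rw [div_le_iff₀ (n0 n)]; rw [div_le_iff₀ hL] at k; linarith
  have ctl : ∀ L > 0, ∀ A > 0, ∀ᶠ n in hyperfilter ℕ, (F n).Ctl { P with L := L } A :=
    fun L hL A hA => ((ev_le A).and (inv L hL)).mono fun n k => (H n).ctl hA k.1 k.2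
  have bu : ∀ L > 0, BU { P with L := L } (hyperfilter ℕ) F := fun L hL =>
    ⟨fun n => ⟨(H n).bas, (H n).t0, (H n).one⟩, ctl L hL⟩
  have del : ∀ᶠ n in hyperfilter ℕ, (F n).δ * c 0 ≤ 1 / 8 := .of_forall fun n => hc ▸ (H n).del
  have geo : ∀ A > 0, ∀ᶠ n in hyperfilter ℕ,
      ∃ σ, MinGeo ((F n).g 0) (F n).U σ (2 * A) ∧ σ A = (F n).x := fun A hA => by
    obtain ⟨K, hK⟩ := hB { P with L := 1 / 4 } hc (ok e₃ ((min_le_right _ _).trans (min_le_right _ _))) 1 A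
    obtain ⟨lev, l0, hK⟩ := hK 0 0
    have c1 := hP.C1
    have a1 := hP.A1
    have lam : 0 < min (1 / (2 * P.C)) (1 / A ^ 2) := by positivity
    filter_upwards [ctl (1 / 4) (by norm_num) lev l0, inv _ lam, ev_le (K + 1), del]
      with n k1 k2 k3 k4
    refine (H n).geo hA ((H n).low hP lam ?_ ?_ k2 (n0 n)) ?_
    · calc _ ≤ P.C * (1 / (2 * P.C)) := by gcongr; exact min_le_left _ _
        _ < 1 := by field_simp; norm_num
    · calc _ ≤ A * √(1 / A ^ 2) := by gcongr; exact min_le_right _ _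
        _ ≤ _ := by rw [one_div, sqrt_inv, sqrt_sq hA.le, mul_inv_cancel₀ hA.ne']; linarith
    · by_contra! k
      have := hK _ _ _ 0 _ k1 k4 ((H n).reg le_rfl le_rfl (H n).bas.mem) (H n).one.le (γ n (ℓ n))
        ((H n).eq ▸ (H n).mem_bl (H n).mem ⟨(H n).mem.1.trans (H n).mem.2, le_rfl⟩
          (by rw [abs_of_nonpos (sub_nonpos.2 (H n).mem.2)]; linarith))
      linarith [(H n).hi]
  obtain ⟨a₁, a1, hC⟩ := hC { P with L := 1 / 4 } hc (ok e₁ (min_le_left _ _))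
  obtain ⟨a₂, a2, hN⟩ := hN { P with L := 1 / 4 } hc
    (ok e₂ ((min_le_right _ _).trans (min_le_left _ _))) (by norm_num)
  have a0 : 0 < min a₁ a₂ := lt_min a1 a2
  obtain ⟨L, G, h1, h2, K, h3⟩ := (hC _ ⟨a0, min_le_left _ _⟩ _ _ X F (bu _ (by norm_num))
    del).resolve_right fun ⟨T, k⟩ =>
      hN _ ⟨a0, min_le_right _ _⟩ _ _ X F T bu (fun n => (H n).h1) del geo k
  obtain ⟨-, t2, -, t4⟩ := P216U.tr _ _ X _ _ _ L fun n => ⟨(H n).clo, (H n).bas.mem, (H n).one⟩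
  have d1 : 0 < min δ (1 / 25) := by positivity
  obtain ⟨A₁, hA⟩ := kcn_all P.κ hP.κ0 _ d1 1 one_pos
  obtain ⟨C, -, hA⟩ := hA (max A₁ 1) (le_max_left _ _)
  have A0 : 0 < max A₁ 1 := lt_max_of_lt_right one_pos
  have e0 : G 0 = L.h := funext fun p => h1.zero (mem_univ p)
  have s1 : Sc L.h L.o = 1 := tendsto_nhds_unique
    (conv_sc_pt L.conv (.of_forall fun n => (H n).clo.met) (mem_univ _))
    (tendsto_const_nhds.congr' (L.base.mono fun n k => by simp only [k, (H n).one]))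
  have k := (hA ⟨L.X⟩ G univ L.o h2 (t4 fun n => (H n).bas.ori _ _ (H n).bas.sl) (mem_univ _)
    (e0 ▸ s1)).2
  rw [e0] at k
  set η := min δ (1 / 25)
  obtain ⟨n, k1, ⟨σ, k2, k3⟩, k4⟩ := ((t2 _ _ _ d1 one_pos k).and ((geo _ A0).and
    (h3 (1 / 2) (by norm_num) (3 / 2 * (η⁻¹ + π) + 1) (by positivity)))).exists
  have sg1 : sg ((F n).g 0) (F n).x = 1 := by rw [sg, (H n).one]; simp
  obtain ⟨φ, k5, x, hx, k6⟩ := k1.neck (by
    rw [sg1, mul_one, ← k3]; exact al_seg k2 A0.le le_rfl (by linarith) zero_le_one)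
  rw [sg1] at k5
  have k7 := k5.mono (min_le_left δ (1 / 25))
  refine ⟨n, φ, ⟨k7, SF.rf_sub k4.1 (by norm_num) (k7.emb.ld.isOpen_image isOpen_anl Subset.rfl)
    ?_⟩, x, hx, k6⟩
  rintro _ ⟨y, hy, rfl⟩
  have hy' : y ∈ anl η⁻¹ := anl_mono (inv_anti₀ d1 (min_le_left _ _)) hy
  have hx' : x ∈ lan (-η⁻¹) η⁻¹ := sphere_sub_lan (c := 0) (by simpa using d1) (by simpa using d1)
    (by simpa using hx)
  have x0 : lv x = 0 := lv_of_mem (by simpa using hx)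
  have := (k5.tb (min_le_right _ _)).ed_le hx' hy'
  rw [k6, x0] at this
  refine this.trans_lt ((ENNReal.ofReal_lt_ofReal_iff (by positivity)).2 ?_)
  have := mem_lan.1 hy'
  have : |0 - lv y| ≤ η⁻¹ := abs_le.2 ⟨by linarith [this.2.2], by linarith [this.2.1]⟩
  linarith

theorem cutl_all : CUTL := fun c => by
  obtain ⟨e, e0, H⟩ := cut_seq c
  refine ⟨e, e0, fun P hc hP δ d0 => ?_⟩
  by_contra! hn
  choose X F γ ℓ h1 h2 h3 h4 h5 h6 h7 h8 h9 using fun n : ℕ => hn (n + 1) (by positivity)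
  have S := P216J.scale
  have key : ∀ n : ℕ, ∃ u ∈ Icc 0 (ℓ n), Nrm P (n + 1) (((F n).at (F n).U (F n).t (γ n u)).rs
      (((F n).h ^ 2)⁻¹)) (fun s => γ n ((F n).h * s)) (ℓ n / (F n).h) (u / (F n).h) := fun n => by
    have h0 := (h1 n).hpos
    have q0 : 0 < ((F n).h ^ 2)⁻¹ := by positivity
    have sq : √((F n).h ^ 2)⁻¹ = (F n).h⁻¹ := by rw [sqrt_inv, sqrt_sq h0.le]
    have n1 : (1 : ℝ) ≤ n + 1 := by linarith [n.cast_nonneg (α := ℝ)]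
    have T := seg_of_minGeo (h6 n)
    have hg := (h1 n).sf.met (h1 n).sl
    have l0 := (h6 n).nonneg
    obtain ⟨u, hu, e1⟩ := intermediate_value_Icc l0 (hg.continuousOn_Sc.comp T.cont T.mem)
      (show ((F n).h ^ 2)⁻¹ ∈ Icc (Sc _ (γ n 0)) (Sc _ (γ n (ℓ n))) from
        ⟨by
          by_contra! k
          have := mul_lt_mul_of_pos_left k (sq_pos_of_pos h0)
          rw [mul_inv_cancel₀ (sq_pos_of_pos h0).ne'] at this
          nlinarith [h7 n],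
        by rw [inv_le_iff_one_le_mul₀' (sq_pos_of_pos h0)]; linarith [h8 n]⟩)
    have e1 : Sc ((F n).g (F n).t) (γ n u) = ((F n).h ^ 2)⁻¹ := e1
    have B := S.atBas _ _ _ _ _ _ (h1 n) (h1 n).sl (T.mem hu)
    have R : (F n).Reg 0 0 (F n).U (F n).t (γ n u) :=
      ⟨Or.inl ⟨rfl, rfl⟩, by simp, T.mem hu, by simp [h3 n]⟩
    have g0 : (((F n).at (F n).U (F n).t (γ n u)).rs (((F n).h ^ 2)⁻¹)).g 0 =
        ((F n).h ^ 2)⁻¹ • (F n).g (F n).t := resc_zero _ _ _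
    have a1 : √((F n).h ^ 2)⁻¹ * ((n + 1) * (F n).h) = n + 1 := by rw [sq]; field_simp
    have a2 : ((F n).h ^ 2)⁻¹ * ((n + 1) * (F n).h ^ 2) = n + 1 := by field_simp
    have E := S.rsEnv _ _ _ _ _ _ _ _ _ q0 B (S.atEnv _ _ _ _ _ _ _ _ _ _ _ _ (h4 n) le_rfl le_rfl R)
    rw [sub_zero, sub_zero, a1, a2] at E
    have m : ∀ s ∈ Icc 0 (ℓ n / (F n).h), (F n).h * s ∈ Icc 0 (ℓ n) := fun s hs =>
      ⟨mul_nonneg h0.le hs.1, (le_div_iff₀' h0).1 hs.2⟩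
    refine ⟨u, hu, hc ▸ S.rsBas _ _ _ _ q0 B, rfl, ?_, hc ▸ h2 n, fun W s y => ?_, E,
      fun W s y k k' => ?_, ⟨T.cont.comp (by fun_prop) m, fun s hs t ht => ?_⟩,
      ⟨div_nonneg hu.1 h0.le, by gcongr; exact hu.2⟩, ?_, ?_, ?_, ?_⟩
    · show √((F n).h ^ 2)⁻¹ * (F n).h = 1
      rw [sq, inv_mul_cancel₀ h0.ne']
    · show _ * (F n).D _ _ _ = 0
      rw [h3 n, mul_zero]
    · have k2 := (S.rsReg _ ((F n).at (F n).U (F n).t (γ n u)) _ ((n + 1) * (F n).h)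
        ((n + 1) * (F n).h ^ 2) W s y q0).1 (by rwa [a1, a2])
      have k3 := S.atReg _ _ _ _ _ _ _ _ _ _ _ _ R k2
      rw [zero_add, zero_add] at k3
      have k4 := S.regSl _ _ _ _ _ _ _ _ (h1 n) (h4 n).init k3
      refine (S.rsCN _ _ _ _ _ _ _ _ _ q0 (S.clo _ _ _ _ _ (h1 n) k4) k.mem).2 (h5 n W _ y k3 ?_)
      have k5 : 1 / ((n : ℝ) + 1) ≤ Sc (((F n).h ^ 2)⁻¹ • (F n).g _) y := k'
      rw [sc_sc q0, div_inv_eq_mul] at k5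
      rw [← div_div, div_le_iff₀ (sq_pos_of_pos h0)]
      exact k5
    · rw [g0, ← inv_pow]
      refine (ed_smul (U := (F n).U) (inv_pos.2 h0) _ _).trans ?_
      rw [T.min _ (m s hs) _ (m t ht), ← ENNReal.ofReal_mul (inv_pos.2 h0).le, ← mul_sub, abs_mul,
        abs_of_pos h0, inv_mul_cancel_left₀ h0.ne']
    · show γ n _ = γ n u
      rw [mul_div_cancel₀ _ h0.ne']
    · rw [g0, sc_sc q0]
      exact (congrArg (· / _) e1).trans (div_self q0.ne')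
    · rw [g0, sc_sc q0, mul_zero, div_inv_eq_mul]
      linarith [h7 n]
    · rw [g0, sc_sc q0, mul_div_cancel₀ _ h0.ne', div_inv_eq_mul]
      linarith [h8 n]
  choose u hu hN using key
  obtain ⟨n, φ, k1, k2⟩ := H P hc hP δ d0 X (fun n => ((F n).at (F n).U (F n).t (γ n (u n))).rs
    (((F n).h ^ 2)⁻¹)) _ _ _ hN
  have h0 := (h1 n).hpos
  refine h9 n φ (S.rsNeck _ _ _ _ (((F n).h ^ 2)⁻¹) _ _ _ (by positivity) ?_) (u n) (hu n) k2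
  rw [sqrt_inv, sqrt_sq h0.le, inv_mul_cancel₀ h0.ne']
  exact k1

end Vale.Agent.P216FA
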