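import Vale.Agent.P216FA.Plan
import Vale.Agent.P216FB.Plan
import Vale.Agent.P216LS.Tub

/-!
# P216FA: the global blocks (statements)
-/

open scoped Manifold ContDiff Topology ENNReal
open Set MeasureTheory Filter

set_option maxSynthPendingDepth 3

noncomputable section

namespace Vale.Agent.P216FA

open Vale.Agent.P216R Vale.Agent.P216DC Vale.Agent.P216SG Vale.Agent.P216BF
open Vale.Agent.P216C (Ori Mem Thick)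
open Vale.Agent.P216FB (Fw)
open Vale.Agent.P216LS (Tub)

/-- **EARLY**: the curvature stays bounded for a definite time -/
def EARLY : Prop :=
  ∀ (N : Mf) (g₀ : Ten E3 N.M) (U₀ : Set N.M), Met g₀ U₀ → IsCompact U₀ → Hs U₀ →
    ∃ t₀ > 0, ∃ K₀, ∀ (X : Mf) (g : ℝ → Ten E3 X.M) (b d : X.M → ℝ) (T : ℝ), SF g b d 0 T →
      Copy g₀ U₀ (g 0) (postS b d 0) →
      (∀ t ∈ Ioo 0 T, preS b d t = postS b d t ∨ ∃ x ∈ preS b d t, K₀ < Sc (g t) x) →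
      ∀ W s, Sl b d 0 T W s → s ≤ t₀ → ∀ y ∈ W, Sc (g s) y ≤ K₀

/-- **LOWPT**: thick points have bounded curvature -/
def LOWPT : Prop :=
  ∀ C A : ℝ, 1 ≤ C → 1 ≤ A → ∃ K, ∀ (X : Mf) (g : Ten E3 X.M) (U : Set X.M) (D : Cls)
    (ε w w' L a : ℝ), Thick D w → Mem D U → Met g U → w' < w → 0 < a → Pin g U a → K ≤ a * L →
    (∀ y ∈ U, L ≤ Sc g y → CN ε C A w' g U y) → ∃ x ∈ U, Sc g x < L

/-- **GCN**: canonical neighbourhoods on the whole flow, away from the initial time -/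
def GCN : Prop :=
  ∀ c : ℕ → ℝ, (∀ j, 1 ≤ c j) → ∃ e > 0, ∀ ε ∈ Ioc 0 e, ∀ κ > 0, ∀ w > 0,
    ∃ C ≥ 2, ∃ A ≥ 1000, ∃ K > 0, ∃ δ₀ > 0, ∀ (X : Mf) (g : ℝ → Ten E3 X.M) (b d : X.M → ℝ)
      (T h δ r : ℝ), Fw c g b d T h δ → δ ≤ δ₀ → r ∈ Ioc (0 : ℝ) 1 →
      (∀ W s, Sl b d 0 T W s → ∀ y ∈ W, ∀ ρ ∈ Ioc (0 : ℝ) 1, NC κ (g s) W y ρ) →
      ∀ W s, Sl b d 0 T W s → 2 * r ^ 2 ≤ s → ∀ y ∈ W, K ≤ r ^ 2 * Sc (g s) y →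
        CN ε C A w (g s) W y

/-- **FIND**: a strong neck in a tube exists when the curvature is large -/
def FIND : Prop :=
  ∀ c : ℕ → ℝ, (∀ j, 1 ≤ c j) → ∀ ε > 0, ∀ κ > 0, ∀ w > 0, ∀ r ∈ Ioc (0 : ℝ) 1,
    ∃ δ₀ > 0, ∃ lo > 0, ∃ B > 0, ∀ δ₁ > 0, ∃ h₀ > 0,
      ∀ (X : Mf) (D : Cls) (g : ℝ → Ten E3 X.M) (b d : X.M → ℝ) (t h δ : ℝ),
        Fw c g b d t h δ → δ ≤ δ₀ → 0 < h → h ≤ h₀ → Thick D w → Mem D (preS b d t) →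
        3 * r ^ 2 ≤ t →
        (∀ W s, Sl b d 0 t W s → ∀ y ∈ W, ∀ ρ ∈ Ioc (0 : ℝ) 1, NC κ (g s) W y ρ) →
        (∃ z ∈ preS b d t, B / h ^ 5 ≤ Sc (g t) z) →
        ∃ φ, SNeck g (preS b d t) φ t h δ₁ ∧ ∃ y ∈ φ '' Metric.sphere 0 1,
          Tub ε lo (1 / h ^ 5) (g t) (preS b d t) y

end Vale.Agent.P216FA
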