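import Vale.Agent.P216FA.Find
import Vale.Agent.P216J.Scale
import Vale.Agent.P216U.Tr
import Vale.Agent.P216BG.Spl
import Vale.Agent.P216BG.Np
import Vale.Agent.P216DC.All
import Vale.Agent.P216LN.Core
import Vale.Agent.P216HY.Bnd
import Vale.Agent.P216L.Lowp
import Vale.Agent.P216LC.NmpA
import Vale.Agent.P216G.Win
import Vale.Agent.P216CP.WinU
import Vale.Agent.P216N.BCBD
import Vale.Agent.P216HV.Regn
import Vale.Agent.P216EO.Cnloc2
import Vale.Agent.P216TK.Lowpt
import Vale.Agent.P216SD.Fwd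
import Vale.Agent.P216LP.Lpx
import Vale.Agent.P216SO.Sout

/-!
# P216FA: assembly
-/

namespace Vale.Agent.P216FA

theorem lowp_all : LOWP := P216L.lowp P216DC.fharn P216BG.tv P216LC.nmp

theorem winn_of (h : RAT) : WINN := P216G.winn h

theorem bca_of (h : RAT) : BCA := P216G.bca P216CP.winA' (winn_of h) P216N.bcbd

theorem core_of (h : RAT) (l : LPX) : CORE :=
  P216LN.core (P216LN.st1 (bca_of h) P216CP.winA') (P216LN.ext P216CP.winA' P216HV.regn)
    (P216HY.bnd P216J.scale l lowp_all (bca_of h)) (P216HY.kout l P216DC.fharn)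

theorem cnloc_of (h : RAT) (l : LPX) (s : SOUT) : CNLOC :=
  P216EO.cnloc P216J.scale P216U.tr P216BG.als P216DC.kcn_all (P216LN.lcn (core_of h l) s)

theorem find_of (h : CNLOC) (c : CUTL) : FIND :=
  find P216J.scale (gcn P216J.scale h) c P216TK.lowpt

theorem bca_all : BCA := bca_of P216SD.rat

theorem core_all : CORE := core_of P216SD.rat P216LP.lpx'

theorem cnloc_all : CNLOC := cnloc_of P216SD.rat P216LP.lpx' P216SO.sout'

end Vale.Agent.P216FA
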