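import Vale.Agent.P216FA.Glob
import Vale.Agent.P216LS.TubC
import Vale.Agent.P216EO.Pp
import Vale.Agent.P216CP.HR

/-!
# P216FA: global canonical neighbourhoods, and finding the neck
-/

open scoped Manifold ContDiff Topology ENNReal
open Set MeasureTheory Filter

set_option maxSynthPendingDepth 3

noncomputable section

namespace Vale.Agent.P216FA

open Vale.Agent.P216R Vale.Agent.P216DC Vale.Agent.P216SG Vale.Agent.P216BF
open Vale.Agent.P216C (Ori Mem Thick)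
open Vale.Agent.P216FB (Fw)

theorem env0 (S : SCALE) {X : Mf} {c : ℕ → ℝ} {g : ℝ → Ten E3 X.M} {b d : X.M → ℝ}
    {T h δ κ r τ a t : ℝ} {U : Set X.M} {x : X.M} (H : Fw c g b d T h δ)
    (hn : ∀ W s, Sl b d 0 T W s → ∀ y ∈ W, ∀ ρ ∈ Ioc (0 : ℝ) 1, NC κ (g s) W y ρ)
    (hU : Sl b d 0 T U t) (hx : x ∈ U) (hr : r ≤ 1) (ha : 0 < a) (hτ : a ≤ t - τ) :
    Dat.Env ⟨g, b, d, 0, T, U, t, x, fun _ _ _ => 0, h, δ⟩ κ 0 r τ a where
  init := ha.trans_le hτ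
  pin W s hW hs := P216EO.pin_mono (H.sf.met hW) (H.pin W s hW (ha.trans_le (hτ.trans hs.1))) ha
    (hτ.trans hs.1)
  d1 W s y _ z _ := by simpa using dd_nonneg
  d2 W s y _ ρ _ σ _ _ _ := by simp
  nc W s y k ρ hρ := hn W s (S.regSl X _ c r τ W s y (H.bas U t x _ hU hx) (ha.trans_le hτ) k) y
    k.mem ρ ⟨hρ.1, hρ.2.trans hr⟩

theorem gcn (S : SCALE) (H : CNLOC) : GCN := fun c hc => by
  obtain ⟨e, e0, H⟩ := H c hc
  refine ⟨e, e0, fun ε hε κ κ0 w w0 => ?_⟩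
  obtain ⟨C, C1, A, A1, K, K0, δ₀, d0, H⟩ := H ε hε κ κ0 w w0 0 le_rfl
  refine ⟨max C 2, le_max_right _ _, A, A1, K, K0, δ₀, d0,
    fun X g b d T h δ r hF hδ hr hn W s hW hs y hy hK => ?_⟩
  have r2 : 0 < r ^ 2 := pow_pos hr.1 2
  have k := H X ⟨g, b, d, 0, T, W, s, y, fun _ _ _ => 0, h, δ⟩ r (hF.bas W s y _ hW hy) hδ hr.1
    (env0 S hF hn hW hy hr.2 r2 (by linarith)) hK
  exact ⟨k.pos, S.dtMono X _ _ _ C A _ A k.pos (by linarith) (le_max_left _ _) le_rfl k.dt, k.nt⟩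

theorem find (S : SCALE) (hG : GCN) (hC : CUTL) (hL : LOWPT) : FIND := by
  intro c hc ε ε0 κ κ0 w w0 r hr
  obtain ⟨e₁, e1, hG⟩ := hG c hc
  obtain ⟨e₂, e2, hC⟩ := hC c
  have c0 : 0 < c 0 := one_pos.trans_le (hc 0)
  have r2 : 0 < r ^ 2 := pow_pos hr.1 2
  obtain ⟨C, C2, A, A1, K, K0, δ₀, d0, hG⟩ := hG (min ε (min e₁ e₂))
    ⟨by positivity, (min_le_right _ _).trans (min_le_left _ _)⟩ κ κ0 (w / 2) (by positivity)
  obtain ⟨K', hL⟩ := hL C A (by linarith) (by linarith)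
  obtain ⟨L, hL1, hL2⟩ : ∃ L, K ≤ r ^ 2 * L ∧ K' ≤ r ^ 2 * L :=
    ⟨max K K' / r ^ 2, by rw [mul_div_cancel₀ _ r2.ne']; exact le_max_left _ _,
      by rw [mul_div_cancel₀ _ r2.ne']; exact le_max_right _ _⟩
  have L0 : 0 < L := pos_of_mul_pos_left (K0.trans_le hL1 |>.trans_eq (mul_comm _ _)) r2.le
  refine ⟨min δ₀ (1 / (8 * c 0)), by positivity, C * L, by positivity, 2 * C, by positivity,
    fun δ₁ d1 => ?_⟩
  obtain ⟨Λ, Λ0, hC⟩ := hC ⟨c, κ, 0, min ε (min e₁ e₂), C, A, w / 2, 1⟩ rfl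
    ⟨hc, κ0, le_rfl, by positivity, (min_le_right _ _).trans (min_le_right _ _), by linarith, A1,
      by positivity, one_pos⟩ δ₁ d1
  refine ⟨min 1 (min (r ^ 2 / Λ) (1 / (Λ * L))), by positivity,
    fun X D g b d t h δ hF hδ h0 hh hT hM ht hn ⟨z, hz, hz'⟩ => ?_⟩
  simp only [le_min_iff] at hδ hh
  obtain ⟨h1, h2, h3⟩ := hh
  rw [le_div_iff₀ Λ0] at h2
  rw [le_div_iff₀ (by positivity)] at h3
  have r1 : r ^ 2 ≤ 1 := pow_le_one₀ hr.1.le hr.2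
  have a1 : Λ * h ^ 2 ≤ r ^ 2 := by nlinarith [mul_pos h0 Λ0]
  have a2 : Λ * h ^ 2 * L ≤ 1 := by nlinarith [mul_pos h0 (mul_pos Λ0 L0)]
  have a0 : 0 < Λ * h ^ 2 := by positivity
  have hU : Sl b d 0 t (preS b d t) t := sl_pre ⟨by linarith, le_rfl⟩
  have hg := hF.sf.met hU
  have cn : ∀ W s, Sl b d 0 t W s → 2 * r ^ 2 ≤ s → ∀ y ∈ W, L ≤ Sc (g s) y →
      CN (min ε (min e₁ e₂)) C A (w / 2) (g s) W y := fun W s hW hs y hy k =>
    hG X g b d t h δ r hF hδ.1 hr hn W s hW hs y hy (hL1.trans (by gcongr))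
  obtain ⟨x, hx, hx'⟩ := hL X (g t) _ D _ w (w / 2) L t hT hM hg (by linarith) (by linarith)
    (hF.pin _ t hU (by linarith)) (hL2.trans (by gcongr; linarith)) (cn _ t hU (by linarith))
  obtain ⟨γ, hγ, g0, g1⟩ := P216CP.exists_minGeo_cpl hg hM.hs (hg.cpl hM.cpt)
    (hg.ed_ne_top hM.conn Subset.rfl hx hz)
  have hB := hF.bas _ t x (fun _ _ _ => 0) hU hx
  obtain ⟨φ, hφ, u, hu, hu'⟩ := hC X ⟨g, b, d, 0, t, preS b d t, t, x, fun _ _ _ => 0, h, δ⟩ γ _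
    hB (by have := hδ.2; rw [le_div_iff₀ (by positivity)] at this; show δ * c 0 ≤ _; linarith)
    (fun _ _ _ => rfl) (env0 S hF hn hU hx (by nlinarith) a0 (by linarith))
    (fun W s y k k' => cn W s (S.regSl X _ c _ _ W s y hB (by show 0 < t - Λ * h ^ 2; linarith) k)
      (by have := k.le; simp only at this; linarith) y k.mem
      (le_trans (by rw [le_div_iff₀ a0]; linarith) k')) hγ
    (by show Λ * h ^ 2 * Sc (g t) (γ 0) ≤ 1; rw [g0]; nlinarith)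
    (by
      show Λ ≤ h ^ 2 * Sc (g t) (γ _)
      rw [g1]
      refine le_trans ?_ (mul_le_mul_of_nonneg_left hz' (sq_nonneg h))
      rw [← mul_div_assoc, le_div_iff₀ (by positivity)]
      have : h ^ 2 ≤ 1 := pow_le_one₀ h0.le h1
      have k : h * Λ * h ^ 2 ≤ 1 := by nlinarith [mul_pos h0 Λ0]
      nlinarith [mul_le_mul_of_nonneg_left k (sq_nonneg h), sq_nonneg h])
  refine ⟨φ, hφ, γ u, hu', (P216LS.tub_of_cn (seg_of_minGeo hγ) hu C2 (by positivity)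
    (by rw [g0]; gcongr) ?_ fun v hv k => cn _ t hU (by linarith) _
      ((seg_of_minGeo hγ).mem hv) (le_trans (by nlinarith) k.1)).mono (min_le_left _ _)⟩
  rw [g1]
  refine lt_of_lt_of_le ?_ hz'
  rw [mul_one_div]
  gcongr
  linarith

end Vale.Agent.P216FA
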