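import Vale.Agent.P216FA.Cutl
import Vale.Agent.P216R.Fin
import Vale.Agent.P216E.NC
import Vale.Agent.P216T.Asm

/-!
# P216FA: the flow theorem and the goal modulo the old results
-/

namespace Vale.Agent.P216FA

theorem gf2 : P216C.GF2 := P216R.gf2_of P216SO.sout' cutl_all P216E.nc_main

theorem goal_old (h : P216TK.OldGoal) : P216C.GOAL := P216T.goal_mod h gf2

end Vale.Agent.P216FA
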